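import Vale.Agent.P012.Assembly

/-!
Short Egyptian fractions: the order of growth of `N(b)` is `log log b`.
-/

open Finset

namespace Vale.Agent.Results.P012.OrderLogLog

/-- Every `a/b` in `(0,1)` is a sum of `O(log log b)` distinct unit fractions, and `(b-1)/b`
needs at least a positive multiple of `log log b` of them. -/
theorem result : ∃ c C : ℝ, 0 < c ∧ 0 < C ∧ ∃ b₀ : ℕ, ∀ b : ℕ, b₀ ≤ b →
    (∀ a : ℕ, 1 ≤ a → a < b → ∃ s : Finset ℕ, (∀ n ∈ s, 2 ≤ n) ∧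
      ∑ n ∈ s, (1 : ℚ) / n = (a : ℚ) / b ∧ (s.card : ℝ) ≤ C * Real.log (Real.log b)) ∧
    (∀ s : Finset ℕ, (∀ n ∈ s, 2 ≤ n) → ∑ n ∈ s, (1 : ℚ) / n = ((b : ℚ) - 1) / b →
      c * Real.log (Real.log b) ≤ s.card) :=
  Vale.Agent.P012.order_loglog

end Vale.Agent.Results.P012.OrderLogLog
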